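import Vale.Agent.Lib.P002.G1Defs

/-!
P002, pool job G1-A (helper38, third copy): the explicit LU factorization of a rank one
perturbation of the identity with unit pivots, and one block step for quadruples.
-/

namespace Vale.Agent.Lib.P002.H38

open Matrix
open Vale.Agent.Lib.P002

theorem g1_rank_one_lu {R : Type*} [CommRing R] : ∀ (k : ℕ) (s : ℕ → Rˣ) (ξ η : Fin k → R),
    (∀ i : Fin k, ξ i * η i = (s i.val : R) - (s (i.val + 1) : R)) →
    ∃ Λ Bq : Matrix (Fin k) (Fin k) R, (∀ i j, i < j → Λ i j = 0) ∧ (∀ i, Λ i i = 1) ∧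
      (∀ i j, j < i → Bq i j = 0) ∧
      (∀ i, Bq i i = ((s (i.val + 1) * (s i.val)⁻¹ : Rˣ) : R)) ∧
      Λ * Bq = 1 - (((s 0)⁻¹ : Rˣ) : R) • Matrix.vecMulVec η ξ := by
  intro k
  induction k with
  | zero =>
    intro s ξ η _
    refine ⟨1, 1, fun i => i.elim0, fun i => i.elim0, fun i => i.elim0, fun i => i.elim0, ?_⟩
    ext i
    exact i.elim0
  | succ k ih =>
    intro s ξ η h
    obtain ⟨Λ', Bq', hΛ, hΛ1, hB, hBd, hprod⟩ := ih (fun t => s (t + 1)) (fun i => ξ i.succ)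
      (fun i => η i.succ) (fun i => h i.succ)
    have h0 : (s 0 : R) * ((s 0)⁻¹ : Rˣ) = 1 := Units.mul_inv (s 0)
    have h1 : (s 1 : R) * ((s 1)⁻¹ : Rˣ) = 1 := Units.mul_inv (s 1)
    have hx : ξ 0 * η 0 = (s 0 : R) - (s 1 : R) := h 0
    have hprod' : ∀ i j : Fin k, (Λ' * Bq') i j
        = (1 : Matrix (Fin k) (Fin k) R) i j - (((s 1)⁻¹ : Rˣ) : R) * (η i.succ * ξ j.succ) := by
      intro i j
      rw [hprod]
      rfl
    refine ⟨bmat 1 0 (fun i => -(ξ 0 * (((s 1)⁻¹ : Rˣ) : R)) * η i.succ) Λ',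
      bmat ((s 1 * (s 0)⁻¹ : Rˣ) : R) (fun j => -(η 0 * (((s 0)⁻¹ : Rˣ) : R)) * ξ j.succ) 0 Bq',
      ?_, ?_, ?_, ?_, ?_⟩
    · intro i j
      refine Fin.cases ?_ (fun i => ?_) i <;> refine Fin.cases ?_ (fun j => ?_) j
      · intro hij
        exact absurd hij (lt_irrefl _)
      · intro _
        rfl
      · intro hij
        exact absurd hij (Fin.not_lt_zero _)
      · intro hij
        rw [bmat_succ_succ]
        exact hΛ i j (Fin.succ_lt_succ_iff.1 hij)
    · intro i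
      refine Fin.cases ?_ (fun i => ?_) i
      · rfl
      · rw [bmat_succ_succ]
        exact hΛ1 i
    · intro i j
      refine Fin.cases ?_ (fun i => ?_) i <;> refine Fin.cases ?_ (fun j => ?_) j
      · intro hij
        exact absurd hij (lt_irrefl _)
      · intro hij
        exact absurd hij (Fin.not_lt_zero _)
      · intro _
        rfl
      · intro hij
        rw [bmat_succ_succ]
        exact hB i j (Fin.succ_lt_succ_iff.1 hij)
    · intro i
      refine Fin.cases ?_ (fun i => ?_) i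
      · rfl
      · rw [bmat_succ_succ]
        exact hBd i
    · rw [bmat_mul]
      ext i j
      refine Fin.cases ?_ (fun i => ?_) i <;> refine Fin.cases ?_ (fun j => ?_) j
      · rw [bmat_zero_zero]
        simp only [Matrix.sub_apply, Matrix.one_apply_eq, Matrix.smul_apply,
          Matrix.vecMulVec_apply, smul_eq_mul, zero_dotProduct, add_zero, one_mul, Units.val_mul]
        linear_combination h0 + (((s 0)⁻¹ : Rˣ) : R) * hx
      · rw [bmat_zero_succ]
        simp only [Matrix.sub_apply, Matrix.one_apply_ne (Fin.succ_ne_zero j).symm,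
          Matrix.smul_apply, Matrix.vecMulVec_apply, smul_eq_mul, Pi.add_apply, one_smul,
          Matrix.zero_vecMul, Pi.zero_apply, add_zero]
        ring
      · rw [bmat_succ_zero]
        simp only [Matrix.sub_apply, Matrix.one_apply_ne (Fin.succ_ne_zero i),
          Matrix.smul_apply, Matrix.vecMulVec_apply, smul_eq_mul, Pi.add_apply, Pi.smul_apply,
          Matrix.mulVec_zero, Pi.zero_apply, add_zero, Units.val_mul]
        linear_combination (-(((s 0)⁻¹ : Rˣ) : R) * ξ 0 * η i.succ) * h1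
      · rw [bmat_succ_succ]
        simp only [Matrix.add_apply, Matrix.vecMulVec_apply, hprod' i j, Matrix.sub_apply,
          Matrix.smul_apply, smul_eq_mul, Matrix.one_apply, Fin.succ_inj]
        linear_combination (((s 1)⁻¹ : Rˣ) : R) * (((s 0)⁻¹ : Rˣ) : R) * η i.succ * ξ j.succ * hx
          + (((s 1)⁻¹ : Rˣ) : R) * η i.succ * ξ j.succ * h0
          - (((s 0)⁻¹ : Rˣ) : R) * η i.succ * ξ j.succ * h1

theorem g1_step {R : Type*} [CommRing R] (k : ℕ) (U' L' Ui Li l' b' : Matrix (Fin k) (Fin k) R)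
    (hUi : U' * Ui = 1) (hLi : L' * Li = 1)
    (hl : ∀ i j, i < j → l' i j = 0) (hl1 : ∀ i, l' i i = 1) (hb : ∀ i j, j < i → b' i j = 0)
    (hq : U' * L' = l' * b')
    (a b : R) (s : ℕ → Rˣ) (ξ η : Fin k → R)
    (hs : ∀ i : Fin k, ξ i * η i = (s i.val : R) - (s (i.val + 1) : R))
    (hsk : (s k : R) = a * b) :
    ∃ (ρ c : Fin k → R) (l bt : Matrix (Fin (k + 1)) (Fin (k + 1)) R),
      ρ ᵥ* L' = ξ ᵥ* b' ∧ U' *ᵥ c = l' *ᵥ η ∧
      (∀ i j, i < j → l i j = 0) ∧ (∀ i, l i i = 1) ∧ (∀ i j, j < i → bt i j = 0) ∧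
      bt 0 0 = (s 0 : R) ∧
      (∀ i : Fin k, bt i.succ i.succ = ((s (i.val + 1) * (s i.val)⁻¹ : Rˣ) : R) * b' i i) ∧
      bmat a ρ 0 U' * bmat b 0 c L' = l * bt := by
  obtain ⟨Λ, Bq, hΛ, hΛ1, hB, hBd, hprod⟩ := g1_rank_one_lu k s ξ η hs
  have hUi' : Ui * U' = 1 := mul_eq_one_comm.1 hUi
  have hLi' : Li * L' = 1 := mul_eq_one_comm.1 hLi
  have h0 : (s 0 : R) * ((s 0)⁻¹ : Rˣ) = 1 := Units.mul_inv (s 0)
  have hρ : ((ξ ᵥ* b') ᵥ* Li) ᵥ* L' = ξ ᵥ* b' := by
    rw [Matrix.vecMul_vecMul, hLi', Matrix.vecMul_one]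
  have hc : U' *ᵥ (Ui *ᵥ (l' *ᵥ η)) = l' *ᵥ η := by
    rw [Matrix.mulVec_mulVec, hUi, Matrix.one_mulVec]
  -- the corner
  have hone : b' * (Li * (Ui * l')) = 1 := by
    have e1 : l' * (b' * (Li * Ui)) = 1 := by
      calc l' * (b' * (Li * Ui)) = (l' * b') * (Li * Ui) := by rw [Matrix.mul_assoc]
        _ = (U' * L') * (Li * Ui) := by rw [hq]
        _ = U' * ((L' * Li) * Ui) := by simp only [Matrix.mul_assoc]
        _ = 1 := by rw [hLi, Matrix.one_mul, hUi]
    have e2 : (b' * (Li * Ui)) * l' = 1 := mul_eq_one_comm.1 e1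
    rw [← e2]
    simp only [Matrix.mul_assoc]
  have hdot : ((ξ ᵥ* b') ᵥ* Li) ⬝ᵥ (Ui *ᵥ (l' *ᵥ η)) = (s 0 : R) - a * b := by
    rw [Matrix.mulVec_mulVec, Matrix.dotProduct_mulVec, Matrix.vecMul_vecMul,
      Matrix.vecMul_vecMul, hone, Matrix.vecMul_one]
    have e : ξ ⬝ᵥ η = ∑ i : Fin k, ((fun t : ℕ => (s t : R)) i.val
        - (fun t : ℕ => (s t : R)) (i.val + 1)) := by
      unfold dotProduct
      exact Finset.sum_congr rfl fun i _ => hs i
    rw [e, Fin.sum_univ_eq_sum_range (fun t : ℕ => (fun t : ℕ => (s t : R)) t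
        - (fun t : ℕ => (s t : R)) (t + 1)) k,
      Finset.sum_range_sub' (fun t : ℕ => (s t : R)) k, hsk]
  refine ⟨(ξ ᵥ* b') ᵥ* Li, Ui *ᵥ (l' *ᵥ η),
    bmat 1 0 ((((s 0)⁻¹ : Rˣ) : R) • (l' *ᵥ η)) (l' * Λ),
    bmat (s 0 : R) (ξ ᵥ* b') 0 (Bq * b'), hρ, hc, ?_, ?_, ?_, rfl, ?_, ?_⟩
  · intro i j
    refine Fin.cases ?_ (fun i => ?_) i <;> refine Fin.cases ?_ (fun j => ?_) j
    · intro hij
      exact absurd hij (lt_irrefl _)
    · intro _
      rfl
    · intro hij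
      exact absurd hij (Fin.not_lt_zero _)
    · intro hij
      rw [bmat_succ_succ]
      exact lt_mul hl hΛ i j (Fin.succ_lt_succ_iff.1 hij)
  · intro i
    refine Fin.cases ?_ (fun i => ?_) i
    · rfl
    · rw [bmat_succ_succ, lt_mul_diag hl hΛ i, hl1 i, hΛ1 i, one_mul]
  · intro i j
    refine Fin.cases ?_ (fun i => ?_) i <;> refine Fin.cases ?_ (fun j => ?_) j
    · intro hij
      exact absurd hij (lt_irrefl _)
    · intro hij
      exact absurd hij (Fin.not_lt_zero _)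
    · intro _
      rfl
    · intro hij
      rw [bmat_succ_succ]
      exact ut_mul hB hb i j (Fin.succ_lt_succ_iff.1 hij)
  · intro i
    rw [bmat_succ_succ, ut_mul_diag hB hb i, hBd i]
  · rw [bmat_mul, bmat_mul, hρ, hc]
    have hcorner : a * b + ((ξ ᵥ* b') ᵥ* Li) ⬝ᵥ (Ui *ᵥ (l' *ᵥ η))
        = 1 * (s 0 : R) + (0 : Fin k → R) ⬝ᵥ (0 : Fin k → R) := by
      rw [hdot, zero_dotProduct]
      ring
    have hrow : a • (0 : Fin k → R) + ξ ᵥ* b'
        = (1 : R) • (ξ ᵥ* b') + (0 : Fin k → R) ᵥ* (Bq * b') := by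
      rw [smul_zero, zero_add, one_smul, Matrix.zero_vecMul, add_zero]
    have hcol : b • (0 : Fin k → R) + l' *ᵥ η
        = (s 0 : R) • ((((s 0)⁻¹ : Rˣ) : R) • (l' *ᵥ η)) + (l' * Λ) *ᵥ (0 : Fin k → R) := by
      rw [smul_zero, zero_add, Matrix.mulVec_zero, add_zero, smul_smul, h0, one_smul]
    have hblock : vecMulVec (0 : Fin k → R) (0 : Fin k → R) + U' * L'
        = vecMulVec ((((s 0)⁻¹ : Rˣ) : R) • (l' *ᵥ η)) (ξ ᵥ* b') + l' * Λ * (Bq * b') := by
      have e1 : vecMulVec ((((s 0)⁻¹ : Rˣ) : R) • (l' *ᵥ η)) (ξ ᵥ* b')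
          = (((s 0)⁻¹ : Rˣ) : R) • (l' * vecMulVec η ξ * b') := by
        rw [Matrix.mul_vecMulVec, Matrix.vecMulVec_mul]
        ext i j
        simp only [Matrix.vecMulVec_apply, Matrix.smul_apply, Pi.smul_apply, smul_eq_mul]
        ring
      have e2 : l' * Λ * (Bq * b') = l' * b' - (((s 0)⁻¹ : Rˣ) : R) • (l' * vecMulVec η ξ * b') := by
        calc l' * Λ * (Bq * b') = l' * (Λ * Bq) * b' := by simp only [Matrix.mul_assoc]
          _ = l' * b' - (((s 0)⁻¹ : Rˣ) : R) • (l' * vecMulVec η ξ * b') := by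
              rw [hprod, Matrix.mul_sub, Matrix.sub_mul, Matrix.mul_one, Matrix.mul_smul,
                Matrix.smul_mul]
      have e3 : vecMulVec (0 : Fin k → R) (0 : Fin k → R) = 0 := by
        ext i j
        simp [Matrix.vecMulVec_apply]
      rw [e1, e2, e3, zero_add, hq]
      abel
    rw [hcorner, hrow, hcol, hblock]

end Vale.Agent.Lib.P002.H38
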